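/-
S0170 team project, work package WP-A5a (owner: helper29).
The velocity field of one elementary move (`Crest.Agent.Helper21.moveField`): smoothness, supports,
vanishing divergence and the plateau formula, together with the elementary facts about the
one-dimensional building blocks `stp`, `plat`, `timeProfile` used to prove them.
-/
import Crest.Agent.Helper21.BoxFlow.Defs

set_option autoImplicit false
set_option linter.unusedVariables false
open scoped ContDiff
open Crest.AnalysisR.BoxFlow Crest.Agent.Helper21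

namespace Crest.Agent.Helper29

noncomputable section

/-! ### The smooth step `stp` -/

theorem stp_contDiff : ContDiff ℝ ∞ stp := Real.smoothTransition.contDiff

theorem stp_zero_of_nonpos {x : ℝ} (h : x ≤ 0) : stp x = 0 :=
  Real.smoothTransition.zero_of_nonpos h

theorem stp_one_of_one_le {x : ℝ} (h : 1 ≤ x) : stp x = 1 :=
  Real.smoothTransition.one_of_one_le h

theorem stp_nonneg (x : ℝ) : 0 ≤ stp x := Real.smoothTransition.nonneg x

theorem stp_le_one (x : ℝ) : stp x ≤ 1 := Real.smoothTransition.le_one x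

theorem stp_differentiable : Differentiable ℝ stp :=
  stp_contDiff.differentiable (by simp)

theorem deriv_stp_contDiff : ContDiff ℝ ∞ (deriv stp) :=
  (contDiff_infty_iff_deriv.1 stp_contDiff).2

theorem deriv_stp_of_nonpos {x : ℝ} (h : x ≤ 0) : deriv stp x = 0 := by
  have h1 : HasDerivWithinAt stp (deriv stp x) (Set.Iic x) x :=
    (stp_differentiable x).hasDerivAt.hasDerivWithinAt
  have h2 : HasDerivWithinAt stp 0 (Set.Iic x) x :=
    (hasDerivWithinAt_const x (Set.Iic x) (0 : ℝ)).congr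
      (fun y hy => stp_zero_of_nonpos (le_trans hy h)) (stp_zero_of_nonpos h)
  exact (uniqueDiffWithinAt_Iic x).eq_deriv _ h1 h2

theorem deriv_stp_of_one_le {x : ℝ} (h : 1 ≤ x) : deriv stp x = 0 := by
  have h1 : HasDerivWithinAt stp (deriv stp x) (Set.Ici x) x :=
    (stp_differentiable x).hasDerivAt.hasDerivWithinAt
  have h2 : HasDerivWithinAt stp 0 (Set.Ici x) x :=
    (hasDerivWithinAt_const x (Set.Ici x) (1 : ℝ)).congr
      (fun y hy => stp_one_of_one_le (le_trans h hy)) (stp_one_of_one_le h)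
  exact (uniqueDiffWithinAt_Ici x).eq_deriv _ h1 h2

/-! ### The plateau function `plat` -/

theorem plat_contDiff (lo hi m : ℚ) : ContDiff ℝ ∞ (plat lo hi m) := by
  unfold plat
  exact (stp_contDiff.comp (by fun_prop)).mul (stp_contDiff.comp (by fun_prop))

theorem plat_differentiable (lo hi m : ℚ) : Differentiable ℝ (plat lo hi m) :=
  (plat_contDiff lo hi m).differentiable (by simp)

theorem deriv_plat_contDiff (lo hi m : ℚ) : ContDiff ℝ ∞ (deriv (plat lo hi m)) :=
  (contDiff_infty_iff_deriv.1 (plat_contDiff lo hi m)).2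

theorem hasDerivAt_plat (lo hi m : ℚ) (x : ℝ) :
    HasDerivAt (plat lo hi m)
      (deriv stp ((x - ((lo : ℝ) - m)) / m) * (1 / (m : ℝ)) * stp ((((hi : ℝ) + m) - x) / m)
        + stp ((x - ((lo : ℝ) - m)) / m) *
          (deriv stp ((((hi : ℝ) + m) - x) / m) * (-(1 / (m : ℝ))))) x := by
  have hu : HasDerivAt (fun y : ℝ => (y - ((lo : ℝ) - m)) / m) (1 / (m : ℝ)) x := by
    simpa using ((hasDerivAt_id x).sub_const ((lo : ℝ) - m)).div_const (m : ℝ)
  have hv : HasDerivAt (fun y : ℝ => (((hi : ℝ) + m) - y) / m) (-(1 / (m : ℝ))) x := by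
    have := ((hasDerivAt_id x).const_sub ((hi : ℝ) + m)).div_const (m : ℝ)
    simpa [neg_div] using this
  have h1 : HasDerivAt (fun y : ℝ => stp ((y - ((lo : ℝ) - m)) / m))
      (deriv stp ((x - ((lo : ℝ) - m)) / m) * (1 / (m : ℝ))) x :=
    (stp_differentiable _).hasDerivAt.comp x hu
  have h2 : HasDerivAt (fun y : ℝ => stp ((((hi : ℝ) + m) - y) / m))
      (deriv stp ((((hi : ℝ) + m) - x) / m) * (-(1 / (m : ℝ)))) x :=
    (stp_differentiable _).hasDerivAt.comp x hv
  exact h1.mul h2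

theorem deriv_plat (lo hi m : ℚ) (x : ℝ) :
    deriv (plat lo hi m) x =
      deriv stp ((x - ((lo : ℝ) - m)) / m) * (1 / (m : ℝ)) * stp ((((hi : ℝ) + m) - x) / m)
        + stp ((x - ((lo : ℝ) - m)) / m) *
          (deriv stp ((((hi : ℝ) + m) - x) / m) * (-(1 / (m : ℝ)))) :=
  (hasDerivAt_plat lo hi m x).deriv

theorem plat_eq_one {lo hi m : ℚ} (hm : 0 < m) {x : ℝ} (h1 : (lo : ℝ) ≤ x) (h2 : x ≤ (hi : ℝ)) :
    plat lo hi m x = 1 := by
  have hm' : (0 : ℝ) < m := by exact_mod_cast hm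
  have hu : 1 ≤ (x - ((lo : ℝ) - m)) / m := by rw [le_div_iff₀ hm']; linarith
  have hv : 1 ≤ (((hi : ℝ) + m) - x) / m := by rw [le_div_iff₀ hm']; linarith
  simp [plat, stp_one_of_one_le hu, stp_one_of_one_le hv]

theorem deriv_plat_eq_zero_of_mem {lo hi m : ℚ} (hm : 0 < m) {x : ℝ} (h1 : (lo : ℝ) ≤ x)
    (h2 : x ≤ (hi : ℝ)) : deriv (plat lo hi m) x = 0 := by
  have hm' : (0 : ℝ) < m := by exact_mod_cast hm
  have hu : 1 ≤ (x - ((lo : ℝ) - m)) / m := by rw [le_div_iff₀ hm']; linarith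
  have hv : 1 ≤ (((hi : ℝ) + m) - x) / m := by rw [le_div_iff₀ hm']; linarith
  simp [deriv_plat, deriv_stp_of_one_le hu, deriv_stp_of_one_le hv]

theorem plat_eq_zero {lo hi m : ℚ} (hm : 0 < m) {x : ℝ}
    (h : x ≤ (lo : ℝ) - m ∨ (hi : ℝ) + m ≤ x) : plat lo hi m x = 0 := by
  have hm' : (0 : ℝ) < m := by exact_mod_cast hm
  rcases h with h | h
  · have hu : (x - ((lo : ℝ) - m)) / m ≤ 0 := div_nonpos_of_nonpos_of_nonneg (by linarith) hm'.le
    simp [plat, stp_zero_of_nonpos hu]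
  · have hv : (((hi : ℝ) + m) - x) / m ≤ 0 := div_nonpos_of_nonpos_of_nonneg (by linarith) hm'.le
    simp [plat, stp_zero_of_nonpos hv]

theorem deriv_plat_eq_zero {lo hi m : ℚ} (hm : 0 < m) {x : ℝ}
    (h : x ≤ (lo : ℝ) - m ∨ (hi : ℝ) + m ≤ x) : deriv (plat lo hi m) x = 0 := by
  have hm' : (0 : ℝ) < m := by exact_mod_cast hm
  rcases h with h | h
  · have hu : (x - ((lo : ℝ) - m)) / m ≤ 0 := div_nonpos_of_nonpos_of_nonneg (by linarith) hm'.le
    simp [deriv_plat, stp_zero_of_nonpos hu, deriv_stp_of_nonpos hu]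
  · have hv : (((hi : ℝ) + m) - x) / m ≤ 0 := div_nonpos_of_nonpos_of_nonneg (by linarith) hm'.le
    simp [deriv_plat, stp_zero_of_nonpos hv, deriv_stp_of_nonpos hv]

theorem plat_nonneg (lo hi m : ℚ) (x : ℝ) : 0 ≤ plat lo hi m x :=
  mul_nonneg (stp_nonneg _) (stp_nonneg _)

theorem plat_le_one (lo hi m : ℚ) (x : ℝ) : plat lo hi m x ≤ 1 := by
  unfold plat
  exact mul_le_one₀ (stp_le_one _) (stp_nonneg _) (stp_le_one _)

/-! ### The time profile -/

theorem timeProfile_contDiff (t₀ t₁ : ℚ) : ContDiff ℝ ∞ (timeProfile t₀ t₁) := by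
  unfold timeProfile
  exact stp_contDiff.comp (by fun_prop)

theorem timeProfile_differentiable (t₀ t₁ : ℚ) : Differentiable ℝ (timeProfile t₀ t₁) :=
  (timeProfile_contDiff t₀ t₁).differentiable (by simp)

theorem deriv_timeProfile_contDiff (t₀ t₁ : ℚ) : ContDiff ℝ ∞ (deriv (timeProfile t₀ t₁)) :=
  (contDiff_infty_iff_deriv.1 (timeProfile_contDiff t₀ t₁)).2

theorem hasDerivAt_timeProfile (t₀ t₁ : ℚ) (t : ℝ) :
    HasDerivAt (timeProfile t₀ t₁)
      (deriv stp ((t - t₀) / ((t₁ : ℝ) - t₀)) * (1 / ((t₁ : ℝ) - t₀))) t := by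
  have hu : HasDerivAt (fun y : ℝ => (y - (t₀ : ℝ)) / ((t₁ : ℝ) - t₀)) (1 / ((t₁ : ℝ) - t₀)) t := by
    simpa using ((hasDerivAt_id t).sub_const (t₀ : ℝ)).div_const ((t₁ : ℝ) - t₀)
  exact (stp_differentiable _).hasDerivAt.comp t hu

theorem deriv_timeProfile (t₀ t₁ : ℚ) (t : ℝ) :
    deriv (timeProfile t₀ t₁) t =
      deriv stp ((t - t₀) / ((t₁ : ℝ) - t₀)) * (1 / ((t₁ : ℝ) - t₀)) :=
  (hasDerivAt_timeProfile t₀ t₁ t).deriv

theorem timeProfile_eq_zero {t₀ t₁ : ℚ} (ht : t₀ < t₁) {t : ℝ} (h : t ≤ (t₀ : ℝ)) :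
    timeProfile t₀ t₁ t = 0 := by
  have ht' : (0 : ℝ) < (t₁ : ℝ) - t₀ := by
    have : (t₀ : ℝ) < t₁ := by exact_mod_cast ht
    linarith
  exact stp_zero_of_nonpos (div_nonpos_of_nonpos_of_nonneg (by linarith) ht'.le)

theorem timeProfile_eq_one {t₀ t₁ : ℚ} (ht : t₀ < t₁) {t : ℝ} (h : (t₁ : ℝ) ≤ t) :
    timeProfile t₀ t₁ t = 1 := by
  have ht' : (0 : ℝ) < (t₁ : ℝ) - t₀ := by
    have : (t₀ : ℝ) < t₁ := by exact_mod_cast ht
    linarith
  exact stp_one_of_one_le (by rw [le_div_iff₀ ht']; linarith)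

theorem deriv_timeProfile_eq_zero {t₀ t₁ : ℚ} (ht : t₀ < t₁) {t : ℝ}
    (h : t ≤ (t₀ : ℝ) ∨ (t₁ : ℝ) ≤ t) : deriv (timeProfile t₀ t₁) t = 0 := by
  have ht' : (0 : ℝ) < (t₁ : ℝ) - t₀ := by
    have : (t₀ : ℝ) < t₁ := by exact_mod_cast ht
    linarith
  rw [deriv_timeProfile]
  rcases h with h | h
  · rw [deriv_stp_of_nonpos (div_nonpos_of_nonpos_of_nonneg (by linarith) ht'.le), zero_mul]
  · rw [deriv_stp_of_one_le (by rw [le_div_iff₀ ht']; linarith), zero_mul]


/-! ### Index bookkeeping in `Fin 3` -/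

theorem fin3_add_one_ne (a : Fin 3) : a + 1 ≠ a := by revert a; decide

theorem fin3_add_two_ne (a : Fin 3) : a + 2 ≠ a := by revert a; decide

theorem fin3_add_two_ne_add_one (a : Fin 3) : a + 2 ≠ a + 1 := by revert a; decide

theorem fin3_cases (a j : Fin 3) : j = a ∨ j = a + 1 ∨ j = a + 2 := by revert a j; decide

theorem sum_fin3_cyclic (a : Fin 3) (g : Fin 3 → ℝ) : ∑ j, g j = g a + g (a + 1) + g (a + 2) := by
  fin_cases a <;> simp [Fin.sum_univ_three] <;> ring

/-! ### The move field -/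

/-- The scalar `λ = ∂_b f = α + w_b x_b + w_c x_c` (`b = a + 1`, `c = a + 2`). -/
def lamF (a : Fin 3) (α : ℚ) (w : Fin 3 → ℚ) (x : Sp) : ℝ :=
  (α : ℝ) + (w (a + 1) : ℝ) * x (a + 1) + (w (a + 2) : ℝ) * x (a + 2)

section move
variable (a : Fin 3) (α : ℚ) (w lo hi : Fin 3 → ℚ) (m t₀ t₁ : ℚ)

theorem moveField_apply_a (p : ℝ × Sp) :
    moveField a α w lo hi m t₀ t₁ p a =
      deriv (timeProfile t₀ t₁) p.1 *
        (plat (lo a) (hi a) m (p.2 a) * plat (lo (a + 2)) (hi (a + 2)) m (p.2 (a + 2)) *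
          (deriv (plat (lo (a + 1)) (hi (a + 1)) m) (p.2 (a + 1)) * potF a α w p.2 +
            plat (lo (a + 1)) (hi (a + 1)) m (p.2 (a + 1)) * lamF a α w p.2)) := by
  simp [moveField, lamF]

theorem moveField_apply_b (p : ℝ × Sp) :
    moveField a α w lo hi m t₀ t₁ p (a + 1) =
      -(deriv (timeProfile t₀ t₁) p.1 *
        (deriv (plat (lo a) (hi a) m) (p.2 a) * plat (lo (a + 1)) (hi (a + 1)) m (p.2 (a + 1)) *
          plat (lo (a + 2)) (hi (a + 2)) m (p.2 (a + 2)) * potF a α w p.2)) := by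
  simp [moveField]

theorem moveField_apply_c (p : ℝ × Sp) : moveField a α w lo hi m t₀ t₁ p (a + 2) = 0 := by
  simp [moveField]

theorem moveField_apply_of_ne (p : ℝ × Sp) (j : Fin 3) (h1 : j ≠ a) (h2 : j ≠ a + 1) :
    moveField a α w lo hi m t₀ t₁ p j = 0 := by
  simp [moveField, h1, h2]

theorem potF_contDiff : ContDiff ℝ ∞ (fun p : ℝ × Sp => potF a α w p.2) := by
  have hx : ∀ i : Fin 3, ContDiff ℝ ∞ (fun p : ℝ × Sp => p.2 i) :=
    fun i => (contDiff_apply ℝ ℝ i).comp contDiff_snd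
  unfold potF
  exact (hx _).mul (((contDiff_const.add ((contDiff_const.mul (hx _)).div_const _)).add
    (contDiff_const.mul (hx _))))

theorem lamF_contDiff : ContDiff ℝ ∞ (fun p : ℝ × Sp => lamF a α w p.2) := by
  have hx : ∀ i : Fin 3, ContDiff ℝ ∞ (fun p : ℝ × Sp => p.2 i) :=
    fun i => (contDiff_apply ℝ ℝ i).comp contDiff_snd
  unfold lamF
  exact (contDiff_const.add (contDiff_const.mul (hx _))).add (contDiff_const.mul (hx _))

theorem moveField_contDiff (hm : 0 < m) (ht : t₀ < t₁) :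
    ContDiff ℝ ∞ (moveField a α w lo hi m t₀ t₁) := by
  rw [contDiff_pi]
  intro j
  have hS : ContDiff ℝ ∞ (fun p : ℝ × Sp => deriv (timeProfile t₀ t₁) p.1) :=
    (deriv_timeProfile_contDiff t₀ t₁).comp contDiff_fst
  have hx : ∀ i : Fin 3, ContDiff ℝ ∞ (fun p : ℝ × Sp => p.2 i) :=
    fun i => (contDiff_apply ℝ ℝ i).comp contDiff_snd
  have hP : ∀ i, ContDiff ℝ ∞ (fun p : ℝ × Sp => plat (lo i) (hi i) m (p.2 i)) :=
    fun i => (plat_contDiff _ _ _).comp (hx i)
  have hP' : ∀ i, ContDiff ℝ ∞ (fun p : ℝ × Sp => deriv (plat (lo i) (hi i) m) (p.2 i)) :=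
    fun i => (deriv_plat_contDiff _ _ _).comp (hx i)
  have hf := potF_contDiff a α w
  have hl := lamF_contDiff a α w
  by_cases hja : j = a
  · subst hja
    simp only [moveField_apply_a]
    exact hS.mul (((hP _).mul (hP _)).mul (((hP' _).mul hf).add ((hP _).mul hl)))
  by_cases hjb : j = a + 1
  · subst hjb
    simp only [moveField_apply_b]
    exact (hS.mul ((((hP' _).mul (hP _)).mul (hP _)).mul hf)).neg
  · simp only [moveField_apply_of_ne a α w lo hi m t₀ t₁ _ j hja hjb]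
    exact contDiff_const

theorem moveField_time_zero (hm : 0 < m) (ht : t₀ < t₁) (p : ℝ × Sp)
    (hp : p.1 ≤ (t₀ : ℝ) ∨ (t₁ : ℝ) ≤ p.1) : moveField a α w lo hi m t₀ t₁ p = 0 := by
  funext j
  rcases fin3_cases a j with rfl | rfl | rfl
  · simp [moveField_apply_a, deriv_timeProfile_eq_zero ht hp]
  · simp [moveField_apply_b, deriv_timeProfile_eq_zero ht hp]
  · simp [moveField_apply_c]

theorem moveField_space_zero (hm : 0 < m) (ht : t₀ < t₁) (p : ℝ × Sp)
    (hp : p.2 ∉ openCell (fun l => lo l - m) (fun l => hi l + m)) :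
    moveField a α w lo hi m t₀ t₁ p = 0 := by
  have hex : ∃ i : Fin 3, p.2 i ≤ (lo i : ℝ) - m ∨ (hi i : ℝ) + m ≤ p.2 i := by
    by_contra hcon
    apply hp
    intro i
    have h3 : ¬ (p.2 i ≤ (lo i : ℝ) - m ∨ (hi i : ℝ) + m ≤ p.2 i) := fun h => hcon ⟨i, h⟩
    rw [not_or, not_le, not_le] at h3
    constructor
    · push_cast; exact h3.1
    · push_cast; exact h3.2
  obtain ⟨i, hi0⟩ := hex
  have h0 : plat (lo i) (hi i) m (p.2 i) = 0 := plat_eq_zero hm hi0
  have h0' : deriv (plat (lo i) (hi i) m) (p.2 i) = 0 := deriv_plat_eq_zero hm hi0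
  funext j
  rcases fin3_cases a j with rfl | rfl | rfl
  · rcases fin3_cases j i with rfl | rfl | rfl
    · simp [moveField_apply_a, h0]
    · simp [moveField_apply_a, h0, h0']
    · simp [moveField_apply_a, h0]
  · rcases fin3_cases a i with rfl | rfl | rfl
    · simp [moveField_apply_b, h0']
    · simp [moveField_apply_b, h0]
    · simp [moveField_apply_b, h0]
  · simp [moveField_apply_c]

theorem moveField_hasCompactSupport (hm : 0 < m) (ht : t₀ < t₁) :
    HasCompactSupport (moveField a α w lo hi m t₀ t₁) := by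
  refine HasCompactSupport.intro
    (K := Set.Icc (t₀ : ℝ) t₁ ×ˢ
      Set.pi Set.univ (fun j : Fin 3 => Set.Icc ((lo j : ℝ) - m) ((hi j : ℝ) + m)))
    (isCompact_Icc.prod (isCompact_univ_pi fun _ => isCompact_Icc)) ?_
  intro p hp
  by_cases h1 : p.1 ∈ Set.Icc (t₀ : ℝ) t₁
  · apply moveField_space_zero a α w lo hi m t₀ t₁ hm ht
    intro h2
    apply hp
    refine ⟨h1, ?_⟩
    intro j _
    have := h2 j
    push_cast at this
    exact ⟨this.1.le, this.2.le⟩
  · apply moveField_time_zero a α w lo hi m t₀ t₁ hm ht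
    simp only [Set.mem_Icc, not_and_or, not_le] at h1
    rcases h1 with h1 | h1
    · exact Or.inl h1.le
    · exact Or.inr h1.le

theorem affFun_eq_lamF (hw : w a = 0) (x : Sp) : affFun α w x = lamF a α w x := by
  unfold affFun lamF
  rw [sum_fin3_cyclic a]
  simp [hw]
  ring

theorem moveField_plateau (hw : w a = 0) (hm : 0 < m) (ht : t₀ < t₁) (p : ℝ × Sp)
    (hp : p.2 ∈ closedCell lo hi) :
    moveField a α w lo hi m t₀ t₁ p =
      (deriv (timeProfile t₀ t₁) p.1 * affFun α w p.2) • (Pi.single a (1 : ℝ) : Sp) := by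
  have h1 : ∀ i, plat (lo i) (hi i) m (p.2 i) = 1 := fun i => plat_eq_one hm (hp i).1 (hp i).2
  have h1' : ∀ i, deriv (plat (lo i) (hi i) m) (p.2 i) = 0 :=
    fun i => deriv_plat_eq_zero_of_mem hm (hp i).1 (hp i).2
  funext j
  rcases fin3_cases a j with rfl | rfl | rfl
  · simp [moveField_apply_a, h1, h1', affFun_eq_lamF j α w hw]
  · simp [moveField_apply_b, h1, h1']
  · simp [moveField_apply_c]


/-! #### Divergence -/

theorem fderiv_eq_deriv_line {E : Type*} [NormedAddCommGroup E] [NormedSpace ℝ E] {g : E → ℝ}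
    {p : E} (hg : DifferentiableAt ℝ g p) (v : E) :
    fderiv ℝ g p v = deriv (fun s : ℝ => g (p + s • v)) 0 := by
  have hL : HasDerivAt (fun s : ℝ => p + s • v) v 0 := by
    simpa using ((hasDerivAt_id (0 : ℝ)).smul_const v).const_add p
  have := hg.hasFDerivAt.comp_hasDerivAt_of_eq (0 : ℝ) hL (by simp)
  exact this.deriv.symm

theorem upd_same (x : Sp) (s : ℝ) (i : Fin 3) :
    (x + s • (Pi.single i (1 : ℝ) : Sp)) i = x i + s := by simp

theorem upd_ne (x : Sp) (s : ℝ) {i k : Fin 3} (h : k ≠ i) :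
    (x + s • (Pi.single i (1 : ℝ) : Sp)) k = x k := by simp [h]

theorem potF_shift_a (x : Sp) (s : ℝ) :
    potF a α w (x + s • (Pi.single a (1 : ℝ) : Sp)) = potF a α w x := by
  unfold potF
  rw [upd_ne x s (fin3_add_one_ne a), upd_ne x s (fin3_add_two_ne a)]

theorem lamF_shift_a (x : Sp) (s : ℝ) :
    lamF a α w (x + s • (Pi.single a (1 : ℝ) : Sp)) = lamF a α w x := by
  unfold lamF
  rw [upd_ne x s (fin3_add_one_ne a), upd_ne x s (fin3_add_two_ne a)]

theorem potF_shift_b (x : Sp) (s : ℝ) :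
    potF a α w (x + s • (Pi.single (a + 1) (1 : ℝ) : Sp)) =
      (x (a + 1) + s) * ((α : ℝ) + (w (a + 1) : ℝ) * (x (a + 1) + s) / 2
        + (w (a + 2) : ℝ) * x (a + 2)) := by
  unfold potF
  rw [upd_same, upd_ne x s (fin3_add_two_ne_add_one a)]

theorem hasDerivAt_potF_shift_b (x : Sp) :
    HasDerivAt (fun s : ℝ => (x (a + 1) + s) * ((α : ℝ) + (w (a + 1) : ℝ) * (x (a + 1) + s) / 2
        + (w (a + 2) : ℝ) * x (a + 2))) (lamF a α w x) 0 := by
  have h1 : HasDerivAt (fun s : ℝ => x (a + 1) + s) 1 0 := by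
    simpa using (hasDerivAt_id (0 : ℝ)).const_add (x (a + 1))
  have h2 : HasDerivAt (fun s : ℝ => (x (a + 1) + s) * ((α : ℝ) + (w (a + 1) : ℝ) * (x (a + 1) + s) / 2
        + (w (a + 2) : ℝ) * x (a + 2)))
      (1 * ((α : ℝ) + (w (a + 1) : ℝ) * (x (a + 1) + 0) / 2 + (w (a + 2) : ℝ) * x (a + 2))
        + (x (a + 1) + 0) * ((w (a + 1) : ℝ) * 1 / 2)) 0 :=
    h1.mul ((((h1.const_mul (w (a + 1) : ℝ)).div_const 2).const_add (α : ℝ)).add_const
      ((w (a + 2) : ℝ) * x (a + 2)))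
  exact h2.congr_deriv (by unfold lamF; ring)

theorem moveField_div (hm : 0 < m) (ht : t₀ < t₁) (p : ℝ × Sp) :
    spaceDiv (moveField a α w lo hi m t₀ t₁) p = 0 := by
  set U := moveField a α w lo hi m t₀ t₁ with hU
  have hUd : DifferentiableAt ℝ U p :=
    ((moveField_contDiff a α w lo hi m t₀ t₁ hm ht).differentiable (by simp)) p
  have key : ∀ j : Fin 3, fderiv ℝ U p (0, Pi.single j 1) j =
      deriv (fun s : ℝ => U (p.1, p.2 + s • (Pi.single j (1 : ℝ) : Sp)) j) 0 := by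
    intro j
    have h1 : fderiv ℝ U p (0, Pi.single j 1) j =
        fderiv ℝ (fun q => U q j) p (0, Pi.single j 1) := by
      rw [fderiv_apply hUd j]; rfl
    rw [h1, fderiv_eq_deriv_line (differentiableAt_pi.1 hUd j)]
    congr 1
    funext s
    congr 2
    ext <;> simp
  unfold spaceDiv
  rw [sum_fin3_cyclic a, key a, key (a + 1), key (a + 2)]
  set x := p.2 with hx
  set S' := deriv (timeProfile t₀ t₁) p.1 with hS'
  -- direction `a`
  have hPa : HasDerivAt (fun s : ℝ => plat (lo a) (hi a) m (x a + s))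
      (deriv (plat (lo a) (hi a) m) (x a)) 0 := by
    have := (plat_differentiable (lo a) (hi a) m (x a + 0)).hasDerivAt.comp_const_add (x a) 0
    simpa using this
  have hA : HasDerivAt (fun s : ℝ => U (p.1, x + s • (Pi.single a (1 : ℝ) : Sp)) a)
      (S' * (deriv (plat (lo a) (hi a) m) (x a) * plat (lo (a + 2)) (hi (a + 2)) m (x (a + 2)) *
          (deriv (plat (lo (a + 1)) (hi (a + 1)) m) (x (a + 1)) * potF a α w x +
            plat (lo (a + 1)) (hi (a + 1)) m (x (a + 1)) * lamF a α w x))) 0 := by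
    have hfun : (fun s : ℝ => U (p.1, x + s • (Pi.single a (1 : ℝ) : Sp)) a) =
        fun s : ℝ => S' * (plat (lo a) (hi a) m (x a + s) *
          plat (lo (a + 2)) (hi (a + 2)) m (x (a + 2)) *
          (deriv (plat (lo (a + 1)) (hi (a + 1)) m) (x (a + 1)) * potF a α w x +
            plat (lo (a + 1)) (hi (a + 1)) m (x (a + 1)) * lamF a α w x)) := by
      funext s
      rw [hU, moveField_apply_a]
      simp only [upd_same, upd_ne x s (fin3_add_one_ne a), upd_ne x s (fin3_add_two_ne a),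
        potF_shift_a, lamF_shift_a]
      rfl
    rw [hfun]
    exact ((hPa.mul_const _).mul_const _).const_mul S'
  -- direction `a + 1`
  have hPb : HasDerivAt (fun s : ℝ => plat (lo (a + 1)) (hi (a + 1)) m (x (a + 1) + s))
      (deriv (plat (lo (a + 1)) (hi (a + 1)) m) (x (a + 1))) 0 := by
    have := (plat_differentiable (lo (a + 1)) (hi (a + 1)) m
      (x (a + 1) + 0)).hasDerivAt.comp_const_add (x (a + 1)) 0
    simpa using this
  have hB : HasDerivAt (fun s : ℝ => U (p.1, x + s • (Pi.single (a + 1) (1 : ℝ) : Sp)) (a + 1))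
      (-(S' * (deriv (plat (lo a) (hi a) m) (x a) * plat (lo (a + 2)) (hi (a + 2)) m (x (a + 2)) *
          (deriv (plat (lo (a + 1)) (hi (a + 1)) m) (x (a + 1)) * potF a α w x +
            plat (lo (a + 1)) (hi (a + 1)) m (x (a + 1)) * lamF a α w x)))) 0 := by
    have hfun : (fun s : ℝ => U (p.1, x + s • (Pi.single (a + 1) (1 : ℝ) : Sp)) (a + 1)) =
        fun s : ℝ => -(S' * (deriv (plat (lo a) (hi a) m) (x a) *
          plat (lo (a + 1)) (hi (a + 1)) m (x (a + 1) + s) *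
          plat (lo (a + 2)) (hi (a + 2)) m (x (a + 2)) *
          ((x (a + 1) + s) * ((α : ℝ) + (w (a + 1) : ℝ) * (x (a + 1) + s) / 2
            + (w (a + 2) : ℝ) * x (a + 2))))) := by
      funext s
      rw [hU, moveField_apply_b]
      simp only [upd_same, upd_ne x s (fin3_add_one_ne a).symm,
        upd_ne x s (fin3_add_two_ne_add_one a), potF_shift_b]
      rfl
    rw [hfun]
    have h3 : HasDerivAt (fun s : ℝ => -(S' * (deriv (plat (lo a) (hi a) m) (x a) *
          plat (lo (a + 1)) (hi (a + 1)) m (x (a + 1) + s) *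
          plat (lo (a + 2)) (hi (a + 2)) m (x (a + 2)) *
          ((x (a + 1) + s) * ((α : ℝ) + (w (a + 1) : ℝ) * (x (a + 1) + s) / 2
            + (w (a + 2) : ℝ) * x (a + 2))))))
        (-(S' * (deriv (plat (lo a) (hi a) m) (x a) *
              deriv (plat (lo (a + 1)) (hi (a + 1)) m) (x (a + 1)) *
              plat (lo (a + 2)) (hi (a + 2)) m (x (a + 2)) *
            ((x (a + 1) + 0) * ((α : ℝ) + (w (a + 1) : ℝ) * (x (a + 1) + 0) / 2
              + (w (a + 2) : ℝ) * x (a + 2))) +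
            deriv (plat (lo a) (hi a) m) (x a) *
              plat (lo (a + 1)) (hi (a + 1)) m (x (a + 1) + 0) *
              plat (lo (a + 2)) (hi (a + 2)) m (x (a + 2)) * lamF a α w x))) 0 :=
      ((((hPb.const_mul (deriv (plat (lo a) (hi a) m) (x a))).mul_const
        (plat (lo (a + 2)) (hi (a + 2)) m (x (a + 2)))).mul
        (hasDerivAt_potF_shift_b a α w x)).const_mul S').neg
    exact h3.congr_deriv (by simp only [add_zero, potF]; ring)
  -- direction `a + 2`
  have hC : (fun s : ℝ => U (p.1, x + s • (Pi.single (a + 2) (1 : ℝ) : Sp)) (a + 2)) =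
      fun _ => 0 := by
    funext s
    rw [hU, moveField_apply_c]
  rw [hA.deriv, hB.deriv, hC, deriv_const]
  ring

end move

end

end Crest.Agent.Helper29
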